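import Vale.Agent.P045.Baer.Pins

/-!
# P045: exponential moment of a zero-diagonal quadratic form in signs

Decoupling by a random bipartition, then integration of one half and the product
inequality `FinnerStmt` for the other half.
-/

namespace Vale.P045.Baer

namespace Chaos

open Finset

/-- A balanced sign function: values `±1`, reversed by some permutation. -/
structure Sign (α : Type) where
  sgn : α → ℝ
  e : α ≃ α
  sq : ∀ a, sgn a * sgn a = 1
  flip : ∀ a, sgn (e a) = -sgn a

variable {V α : Type} [DecidableEq V] (S : Sign α)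

/-- Reverse the sign at one coordinate. -/
def flipAt (v : V) : (V → α) ≃ (V → α) :=
  Equiv.piCongrRight fun u => if u = v then S.e else Equiv.refl α

lemma flipAt_self (v : V) (x : V → α) : flipAt S v x v = S.e (x v) := by
  simp [flipAt]

lemma flipAt_ne {u v : V} (h : u ≠ v) (x : V → α) : flipAt S v x u = x u := by
  simp [flipAt, h]

lemma sgn_flipAt_self (v : V) (x : V → α) : S.sgn (flipAt S v x v) = -S.sgn (x v) := by
  rw [flipAt_self, S.flip]

lemma abs_sgn (a : α) : |S.sgn a| = 1 := by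
  rcases mul_self_eq_one_iff.1 (S.sq a) with h | h <;> simp [h]

variable [Fintype V] [Fintype α]

lemma sum_eq_zero_of_odd (v : V) (F : (V → α) → ℝ) (h : ∀ x, F (flipAt S v x) = -F x) :
    ∑ x, F x = 0 := by
  have h1 := (flipAt S v).sum_comp F
  simp only [h, Finset.sum_neg_distrib] at h1
  linarith

lemma sum_sgn (v : V) : ∑ x : V → α, S.sgn (x v) = 0 :=
  sum_eq_zero_of_odd S v _ fun x => sgn_flipAt_self S v x

lemma sum_sgn_mul {u v : V} (h : u ≠ v) : ∑ x : V → α, S.sgn (x u) * S.sgn (x v) = 0 :=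
  sum_eq_zero_of_odd S u _ fun x => by
    rw [sgn_flipAt_self, flipAt_ne S h.symm]; ring

/-- Integrating out coordinates that the coefficients do not see. -/
lemma integrate (c : ℝ) (D : Finset V) (y : V → (V → α) → ℝ) :
    (∀ v, ∀ w ∈ D, ∀ x, y v (flipAt S w x) = y v x) →
    ∀ F : (V → α) → ℝ, (∀ x, 0 ≤ F x) → (∀ w ∈ D, ∀ x, F (flipAt S w x) = F x) →
      ∑ x, F x * Real.exp (c * ∑ v ∈ D, S.sgn (x v) * y v x) ≤
        ∑ x, F x * Real.exp (c ^ 2 / 2 * ∑ v ∈ D, y v x ^ 2) := by
  induction D using Finset.induction with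
  | empty => intro _ F _ _; simp
  | @insert v₀ D hv₀ ih =>
    intro hy F hF hFi
    have hy' : ∀ v, ∀ w ∈ D, ∀ x, y v (flipAt S w x) = y v x :=
      fun v w hw => hy v w (Finset.mem_insert_of_mem hw)
    calc ∑ x, F x * Real.exp (c * ∑ v ∈ insert v₀ D, S.sgn (x v) * y v x)
        = ∑ x, (F x * Real.exp (c * (S.sgn (x v₀) * y v₀ x))) *
            Real.exp (c * ∑ v ∈ D, S.sgn (x v) * y v x) := by
          refine Finset.sum_congr rfl fun x _ => ?_
          rw [Finset.sum_insert hv₀, mul_add, Real.exp_add, mul_assoc]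
      _ ≤ ∑ x, (F x * Real.exp (c * (S.sgn (x v₀) * y v₀ x))) *
            Real.exp (c ^ 2 / 2 * ∑ v ∈ D, y v x ^ 2) := by
          refine ih hy' _ (fun x => mul_nonneg (hF x) (Real.exp_nonneg _)) fun w hw x => ?_
          rw [hFi w (Finset.mem_insert_of_mem hw), hy' v₀ w hw,
            flipAt_ne S (fun h => hv₀ (h ▸ hw) : v₀ ≠ w)]
      _ ≤ _ := by
          have h2 : ∀ G : (V → α) → ℝ,
              2 * ∑ x, G x = ∑ x, (G x + G (flipAt S v₀ x)) := fun G => by
            rw [Finset.sum_add_distrib, (flipAt S v₀).sum_comp G]; ring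
          refine le_of_mul_le_mul_left ?_ (two_pos : (0 : ℝ) < 2)
          rw [h2, h2]
          refine Finset.sum_le_sum fun x _ => ?_
          have hm := Finset.mem_insert_self v₀ D
          simp only [hFi v₀ hm, hy _ v₀ hm, sgn_flipAt_self, Finset.sum_insert hv₀, mul_add,
            Real.exp_add]
          have hc := Real.cosh_le_exp_half_sq (c * (S.sgn (x v₀) * y v₀ x))
          rw [Real.cosh_eq] at hc
          have hsq : (c * (S.sgn (x v₀) * y v₀ x)) ^ 2 / 2 = c ^ 2 / 2 * y v₀ x ^ 2 := by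
            rw [show (c * (S.sgn (x v₀) * y v₀ x)) ^ 2
              = c ^ 2 * (S.sgn (x v₀) * S.sgn (x v₀)) * y v₀ x ^ 2 by ring, S.sq]
            ring
          rw [hsq] at hc
          rw [show c * (-S.sgn (x v₀) * y v₀ x) = -(c * (S.sgn (x v₀) * y v₀ x)) by ring]
          have hnn : 0 ≤ F x * Real.exp (c ^ 2 / 2 * ∑ v ∈ D, y v x ^ 2) :=
            mul_nonneg (hF x) (Real.exp_nonneg _)
          nlinarith [mul_le_mul_of_nonneg_left hc hnn]

/-- The linear form in column `v`. -/
def col (W : V → V → ℝ) (v : V) (x : V → α) : ℝ := ∑ u, W u v * S.sgn (x u)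

lemma sum_col_sq (W : V → V → ℝ) (v : V) :
    ∑ x : V → α, col S W v x ^ 2 = (Fintype.card (V → α) : ℝ) * ∑ u, W u v ^ 2 := by
  simp only [col, pow_two, Finset.sum_mul_sum]
  rw [Finset.sum_comm, Finset.mul_sum]
  refine Finset.sum_congr rfl fun u _ => ?_
  rw [Finset.sum_comm, Finset.sum_eq_single u]
  · simp [mul_mul_mul_comm, S.sq]
  · intro w _ hw
    have : ∀ x : V → α, W u v * S.sgn (x u) * (W w v * S.sgn (x w)) =
        W u v * W w v * (S.sgn (x u) * S.sgn (x w)) := fun x => by ring
    simp only [this, ← Finset.mul_sum, sum_sgn_mul S (Ne.symm hw), mul_zero]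
  · simp

open Classical in
/-- The decoupled form: no coordinate is both a row and a column. -/
lemma bipartite (hn : FinnerStmt) [Nonempty α] (W : V → V → ℝ)
    (hbip : ∀ u v w, W u v = 0 ∨ W v w = 0) (k : ℕ) (hk : 0 < k)
    (hrow : ∀ u, (univ.filter fun v => W u v ≠ 0).card ≤ k) (R : ℝ)
    (hcol : ∀ v, ∑ u, |W u v| ≤ R) (c : ℝ) (hc : (k : ℝ) * c ^ 2 * R ^ 2 ≤ 2) :
    ∑ x : V → α, Real.exp (c * ∑ v, S.sgn (x v) * col S W v x) ≤
      (Fintype.card (V → α) : ℝ) * Real.exp (c ^ 2 * ∑ v, ∑ u, W u v ^ 2) := by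
  set N : ℝ := (Fintype.card (V → α) : ℝ) with hN
  have hNpos : 0 < N := by rw [hN]; exact_mod_cast Fintype.card_pos
  let D : Finset V := univ.filter fun v => ∃ u, W u v ≠ 0
  have hD : ∀ v, v ∉ D → ∀ x, col S W v x = 0 := fun v hv x =>
    Finset.sum_eq_zero fun u _ => by
      have : W u v = 0 := by
        by_contra h
        exact hv (Finset.mem_filter.2 ⟨Finset.mem_univ _, u, h⟩)
      simp [this]
  have hinv : ∀ v, ∀ w ∈ D, ∀ x : V → α, col S W v (flipAt S w x) = col S W v x := by
    intro v w hw x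
    obtain ⟨u0, hu0⟩ := (Finset.mem_filter.1 hw).2
    refine Finset.sum_congr rfl fun u _ => ?_
    rcases eq_or_ne u w with rfl | h
    · rw [(hbip u0 u v).resolve_left hu0]; simp
    · rw [flipAt_ne S h]
  have hint := integrate S c D (col S W) hinv (fun _ => 1) (fun _ => zero_le_one)
    (fun _ _ _ => rfl)
  simp only [one_mul] at hint
  have hF := hn V V α (fun v x => Real.exp (c ^ 2 / 2 * col S W v x ^ 2))
    (fun v => univ.filter fun u => W u v ≠ 0) k hk (fun _ _ => Real.exp_nonneg _)
    (fun v x y h => by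
      have : col S W v x = col S W v y := Finset.sum_congr rfl fun u _ => by
        by_cases hu : W u v = 0
        · simp [hu]
        · rw [h u (Finset.mem_filter.2 ⟨Finset.mem_univ _, hu⟩)]
      simp only [this])
    (fun u => by simpa using hrow u)
  have hfac : ∀ v, ((∑ x : V → α, Real.exp (c ^ 2 / 2 * col S W v x ^ 2) ^ k) / N) ^
      ((1 : ℝ) / (k : ℝ)) ≤ Real.exp (c ^ 2 * ∑ u, W u v ^ 2) := by
    intro v
    have hk' : (0 : ℝ) < k := by exact_mod_cast hk
    have h1 : ∀ x : V → α, Real.exp (c ^ 2 / 2 * col S W v x ^ 2) ^ k ≤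
        1 + (k : ℝ) * c ^ 2 * col S W v x ^ 2 := by
      intro x
      rw [← Real.exp_nat_mul]
      have hy : |col S W v x| ≤ R := by
        refine ((Finset.abs_sum_le_sum_abs _ _).trans_eq ?_).trans (hcol v)
        simp [abs_mul, abs_sgn]
      have hy2 : col S W v x ^ 2 ≤ R ^ 2 :=
        sq_le_sq' (abs_le.1 hy).1 (abs_le.1 hy).2
      have ha : 0 ≤ (k : ℝ) * (c ^ 2 / 2 * col S W v x ^ 2) := by positivity
      have ha1 : (k : ℝ) * (c ^ 2 / 2 * col S W v x ^ 2) ≤ 1 := by
        nlinarith [mul_le_mul_of_nonneg_left hy2 (by positivity : 0 ≤ (k : ℝ) * c ^ 2)]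
      have h3 := (abs_le.1 (Real.abs_exp_sub_one_le (by rwa [abs_of_nonneg ha]))).2
      rw [abs_of_nonneg ha] at h3
      linarith
    have h2 : (∑ x : V → α, Real.exp (c ^ 2 / 2 * col S W v x ^ 2) ^ k) / N ≤
        Real.exp ((k : ℝ) * c ^ 2 * ∑ u, W u v ^ 2) := by
      refine le_trans ?_ (Real.add_one_le_exp _)
      rw [div_le_iff₀ hNpos]
      refine (Finset.sum_le_sum fun x _ => h1 x).trans_eq ?_
      rw [Finset.sum_add_distrib, ← Finset.mul_sum, sum_col_sq S W v]
      simp [hN]; ring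
    refine (Real.rpow_le_rpow ?_ h2 (by positivity)).trans_eq ?_
    · exact div_nonneg (Finset.sum_nonneg fun x _ => by positivity) hNpos.le
    · rw [← Real.exp_mul]; congr 1; field_simp
  calc ∑ x : V → α, Real.exp (c * ∑ v, S.sgn (x v) * col S W v x)
      = ∑ x : V → α, Real.exp (c * ∑ v ∈ D, S.sgn (x v) * col S W v x) := by
        refine Finset.sum_congr rfl fun x _ => ?_
        rw [← Finset.sum_subset (Finset.subset_univ D) fun v _ hv => by simp [hD v hv x]]
    _ ≤ ∑ x : V → α, Real.exp (c ^ 2 / 2 * ∑ v ∈ D, col S W v x ^ 2) := hint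
    _ = ∑ x : V → α, ∏ v, Real.exp (c ^ 2 / 2 * col S W v x ^ 2) := by
        refine Finset.sum_congr rfl fun x _ => ?_
        rw [← Real.exp_sum, ← Finset.mul_sum,
          ← Finset.sum_subset (Finset.subset_univ D) fun v _ hv => by simp [hD v hv x]]
    _ ≤ N * Real.exp (c ^ 2 * ∑ v, ∑ u, W u v ^ 2) := by
        rw [div_le_iff₀' hNpos] at hF
        refine hF.trans (mul_le_mul_of_nonneg_left ?_ hNpos.le)
        rw [Finset.mul_sum, Real.exp_sum]
        exact Finset.prod_le_prod
          (fun v _ => Real.rpow_nonneg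
            (div_nonneg (Finset.sum_nonneg fun x _ => by positivity) hNpos.le) _)
          fun v _ => hfac v

/-- The quadratic form. -/
def quad (W : V → V → ℝ) (x : V → α) : ℝ := ∑ u, ∑ v, W u v * S.sgn (x u) * S.sgn (x v)

/-- Row indicator of a bipartition. -/
noncomputable def inT (t : V → α) (u : V) : ℝ := (1 + S.sgn (t u)) / 2

/-- Column indicator of a bipartition. -/
noncomputable def outT (t : V → α) (v : V) : ℝ := (1 - S.sgn (t v)) / 2

/-- The decoupled matrix. -/
noncomputable def split (W : V → V → ℝ) (t : V → α) (u v : V) : ℝ :=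
  W u v * inT S t u * outT S t v

lemma sum_inT_outT {u v : V} (h : u ≠ v) :
    ∑ t : V → α, inT S t u * outT S t v = (Fintype.card (V → α) : ℝ) / 4 := by
  have : ∀ t : V → α, inT S t u * outT S t v =
      (1 / 4) * (1 + S.sgn (t u) - S.sgn (t v) - S.sgn (t u) * S.sgn (t v)) := fun t => by
    simp only [inT, outT]; ring
  simp only [this, ← Finset.mul_sum, Finset.sum_sub_distrib, Finset.sum_add_distrib, sum_sgn,
    sum_sgn_mul S h]
  simp; ring

open Classical in
/-- Exponential moment of a zero-diagonal quadratic form. -/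
theorem exp_moment (hn : FinnerStmt) [Nonempty α] (W : V → V → ℝ) (hdiag : ∀ v, W v v = 0)
    (k : ℕ) (hk : 0 < k) (hrow : ∀ u, (univ.filter fun v => W u v ≠ 0).card ≤ k) (R : ℝ)
    (hcol : ∀ v, ∑ u, |W u v| ≤ R) (a : ℝ) (ha : 8 * (k : ℝ) * a ^ 2 * R ^ 2 ≤ 1) :
    ∑ x : V → α, Real.exp (a * quad S W x) ≤
      (Fintype.card (V → α) : ℝ) * Real.exp (16 * a ^ 2 * ∑ v, ∑ u, W u v ^ 2) := by
  set N : ℝ := (Fintype.card (V → α) : ℝ) with hN
  have hNpos : 0 < N := by rw [hN]; exact_mod_cast Fintype.card_pos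
  have habs : ∀ t : V → α, ∀ u v, |split S W t u v| ≤ |W u v| := by
    intro t u v
    rcases mul_self_eq_one_iff.1 (S.sq (t u)) with h | h <;>
      rcases mul_self_eq_one_iff.1 (S.sq (t v)) with h' | h' <;>
      simp [split, inT, outT, h, h']
  have hbip : ∀ t : V → α, ∀ u v w, split S W t u v = 0 ∨ split S W t v w = 0 := by
    intro t u v w
    rcases mul_self_eq_one_iff.1 (S.sq (t v)) with h | h <;> simp [split, inT, outT, h]
  have hone : ∀ t : V → α,
      ∑ x : V → α, Real.exp (4 * a * ∑ v, S.sgn (x v) * col S (split S W t) v x) ≤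
        N * Real.exp (16 * a ^ 2 * ∑ v, ∑ u, W u v ^ 2) := by
    intro t
    refine (bipartite S hn (split S W t) (hbip t) k hk (fun u => le_trans (Finset.card_le_card
      fun v => ?_) (hrow u)) R (fun v => le_trans (Finset.sum_le_sum fun u _ => habs t u v)
      (hcol v)) (4 * a) (by nlinarith)).trans ?_
    · simp only [Finset.mem_filter, Finset.mem_univ, true_and]
      intro h h0
      exact h (by simp [split, h0])
    · refine mul_le_mul_of_nonneg_left (Real.exp_le_exp.2 ?_) hNpos.le
      rw [show (4 * a) ^ 2 = 16 * a ^ 2 by ring]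
      exact mul_le_mul_of_nonneg_left (Finset.sum_le_sum fun v _ => Finset.sum_le_sum
        fun u _ => sq_le_sq.2 (habs t u v)) (by positivity)
  have havg : ∀ x : V → α,
      ∑ t : V → α, ∑ v, S.sgn (x v) * col S (split S W t) v x = N / 4 * quad S W x := by
    intro x
    rw [Finset.sum_comm, quad, Finset.sum_comm (f := fun u v => W u v * _ * _), Finset.mul_sum]
    refine Finset.sum_congr rfl fun v _ => ?_
    simp only [col, Finset.mul_sum]
    rw [Finset.sum_comm]
    refine Finset.sum_congr rfl fun u _ => ?_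
    rcases eq_or_ne u v with rfl | h
    · simp [split, hdiag u]
    · have : ∀ t : V → α, S.sgn (x v) * (split S W t u v * S.sgn (x u)) =
          W u v * S.sgn (x u) * S.sgn (x v) * (inT S t u * outT S t v) := fun t => by
        simp only [split]; ring
      simp only [this, ← Finset.mul_sum, sum_inT_outT S h, ← hN]
      ring
  have hj : ∀ x : V → α, Real.exp (a * quad S W x) ≤
      ∑ t : V → α, (1 / N) * Real.exp (4 * a * ∑ v, S.sgn (x v) * col S (split S W t) v x) := by
    intro x
    have h1 : ∑ t : V → α, (1 / N) * (4 * a * ∑ v, S.sgn (x v) * col S (split S W t) v x) =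
        a * quad S W x := by
      rw [← Finset.mul_sum, ← Finset.mul_sum, havg x]; field_simp
    have := convexOn_exp.map_sum_le (t := (univ : Finset (V → α))) (w := fun _ => 1 / N)
      (p := fun t => 4 * a * ∑ v, S.sgn (x v) * col S (split S W t) v x)
      (fun _ _ => by positivity) (by rw [Finset.sum_const, nsmul_eq_mul]; field_simp; simp [hN])
      (fun _ _ => Set.mem_univ _)
    simpa only [smul_eq_mul, h1] using this
  refine (Finset.sum_le_sum fun x _ => hj x).trans ?_
  rw [Finset.sum_comm]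
  simp only [← Finset.mul_sum]
  refine (mul_le_mul_of_nonneg_left (Finset.sum_le_sum fun t _ => hone t)
    (by positivity)).trans_eq ?_
  rw [Finset.sum_const, nsmul_eq_mul]
  simp only [Finset.card_univ, ← hN]
  field_simp

open Classical in
/-- Upper tail of a zero-diagonal quadratic form. -/
theorem tail (hn : FinnerStmt) [Nonempty α] (W : V → V → ℝ) (hdiag : ∀ v, W v v = 0)
    (k : ℕ) (hk : 0 < k) (hrow : ∀ u, (univ.filter fun v => W u v ≠ 0).card ≤ k) (R : ℝ)
    (hcol : ∀ v, ∑ u, |W u v| ≤ R) (a : ℝ) (ha0 : 0 ≤ a)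
    (ha : 8 * (k : ℝ) * a ^ 2 * R ^ 2 ≤ 1) (M T : ℝ) (hM : ∑ v, ∑ u, W u v ^ 2 ≤ M) :
    ((univ.filter fun x : V → α => T < quad S W x).card : ℝ) ≤
      (Fintype.card (V → α) : ℝ) * Real.exp (16 * a ^ 2 * M - a * T) := by
  have h1 : ((univ.filter fun x : V → α => T < quad S W x).card : ℝ) * Real.exp (a * T) ≤
      ∑ x : V → α, Real.exp (a * quad S W x) := by
    calc _ = ∑ x ∈ univ.filter (fun x : V → α => T < quad S W x), Real.exp (a * T) := by
          rw [Finset.sum_const, nsmul_eq_mul]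
      _ ≤ ∑ x ∈ univ.filter (fun x : V → α => T < quad S W x), Real.exp (a * quad S W x) :=
          Finset.sum_le_sum fun x hx => Real.exp_le_exp.2
            (mul_le_mul_of_nonneg_left (Finset.mem_filter.1 hx).2.le ha0)
      _ ≤ _ := Finset.sum_le_sum_of_subset_of_nonneg (Finset.filter_subset _ _)
          fun x _ _ => Real.exp_nonneg _
  have h2 := h1.trans (exp_moment S hn W hdiag k hk hrow R hcol a ha)
  rw [Real.exp_sub, ← mul_div_assoc, le_div_iff₀ (Real.exp_pos _)]
  exact h2.trans (mul_le_mul_of_nonneg_left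
    (Real.exp_le_exp.2 (mul_le_mul_of_nonneg_left hM (by positivity))) (Nat.cast_nonneg _))

end Chaos

end Vale.P045.Baer
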